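/-
P235, line HUB, row [PIECE] (helper424).
-/
import Vale.Agent.P235.Hub.Defs

namespace Vale.Agent.P235.Hub.H424

open Vale.Agent.P235 Vale.Agent.P235.R2.H598 Vale.Agent.P235.Hub

/-- the lengths given by a symmetric function -/
def len {V : Type} (d : V → V → ℝ) (hs : ∀ x y, d x y = d y x) : Sym2 V → ℝ :=
  Sym2.lift ⟨d, hs⟩

theorem met_abs {V : Type} {d : V → V → ℝ} (hd : IsMet d) (x u v : V) :
    |d x u - d x v| ≤ d u v := by
  have h1 := hd.tri x u v
  have h2 := hd.tri x v u
  rw [hd.symm v u] at h2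
  rw [abs_le]
  constructor <;> linarith

theorem exists_rho {V : Type} [Finite V] {G : SimpleGraph V} (hc : G.Connected) {C : ℝ}
    (h : DistortionLE G C) {d : V → V → ℝ} (hd : IsMet d) (hG : Gen G d) :
    ∃ ρ : V → V → ℝ, IsL1 ρ ∧ (∀ x y, d x y ≤ ρ x y) ∧ ∀ x y, ρ x y ≤ C * d x y := by
  have hℓ : ∀ e ∈ G.edgeSet, 0 < len d hd.symm e := by
    intro e he
    induction e using Sym2.ind with
    | _ u v => exact hd.pos u v (G.mem_edgeSet.1 he).ne
  have hm := pathDist_isMet hc hℓ
  have e1 : ∀ x y, pathDist G (len d hd.symm) x y = d x y := by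
    intro x y
    apply le_antisymm
    · have h2 := hG (fun z => pathDist G (len d hd.symm) x z)
        (fun u v huv => (met_abs hm x u v).trans (pathDist_adj hℓ huv)) x y
      rw [hm.self, zero_sub, abs_neg, abs_of_nonneg (hm.nonneg x y)] at h2
      exact h2
    · have h2 := pathDist_gen (ℓ := len d hd.symm) hc (f := fun z => d x z)
        (fun u v _ => met_abs hd x u v) x y
      rw [hd.self, zero_sub, abs_neg, abs_of_nonneg (hd.nonneg x y)] at h2
      exact h2
  obtain ⟨ρ, hρ, h1, h2, -⟩ := (h _ hℓ).toL1S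
  exact ⟨ρ, hρ.isL1, fun x y => by rw [← e1]; exact h1 x y, fun x y => by
    rw [← e1]; exact h2 x y⟩

/-- [PIECE] -/
theorem piece (hL : LossyStmt) (hS : SupStmt) : PieceStmt := by
  classical
  intro C hC k V _ G hc hDist A hA d hd hG s t hst
  have hC3 : (0 : ℝ) < 2 * C + 3 := by linarith
  have hθ : (0 : ℝ) < 1 / (2 * C + 3) := by positivity
  have hθ1 : 1 / (2 * C + 3) ≤ 1 := by
    rw [div_le_one hC3]; linarith
  obtain ⟨ρ, hρ, hρ1, hρ2⟩ := exists_rho hc hDist hd hG
  obtain ⟨F, hF, hFst, hFA, hFup, hFlow⟩ := hL C hC V d ρ hd hρ hρ1 hρ2 k A hA s t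
  set θ : ℝ := 1 / (2 * C + 3) with hθd
  have hθC : θ * (2 * C + 3) = 1 := by rw [hθd]; field_simp
  let S : V → V → Prop := fun u v => u ∈ A ∨ v ∈ A ∨ (u = s ∧ v = t) ∨ (u = t ∧ v = s)
  let lam : V → V → ℝ := fun u v => if S u v then θ * d u v else d u v
  have hlam1 : ∀ u v, S u v → lam u v = θ * d u v := fun u v h => if_pos h
  have hlam2 : ∀ u v, ¬ S u v → lam u v = d u v := fun u v h => if_neg h
  have hle : ∀ u v, θ * d u v ≤ d u v := fun u v => by
    have := mul_le_mul_of_nonneg_right hθ1 (hd.nonneg u v)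
    linarith
  obtain ⟨D, hD, hD1, hD2, hD3, hD4⟩ := hS V G d hd hG θ hθ G.Adj lam (fun u v h => h)
    (fun u v _ => by
      by_cases h : S u v
      · rw [hlam1 u v h]
      · rw [hlam2 u v h]; exact hle u v)
    (fun u v _ => by
      by_cases h : S u v
      · rw [hlam1 u v h]; exact hle u v
      · rw [hlam2 u v h])
  have hstar : ∀ u v, G.Adj u v → S u v → D u v = θ * d u v := by
    intro u v huv h
    have := hD3 u v huv
    rw [hlam1 u v h] at this
    exact le_antisymm this (hD1 u v)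
  have hst' : D s t = θ * d s t := hstar s t hst (Or.inr (Or.inr (Or.inl ⟨rfl, rfl⟩)))
  -- the scaled semimetric is below `lam`
  have hFle : ∀ u v, θ * F u v ≤ lam u v := by
    intro u v
    by_cases h : S u v
    · rw [hlam1 u v h]
      refine mul_le_mul_of_nonneg_left ?_ hθ.le
      rcases h with h | h | ⟨rfl, rfl⟩ | ⟨rfl, rfl⟩
      · exact hFA u h v
      · rw [hF.symm, hd.symm]; exact hFA v h u
      · exact hFst.le
      · rw [hF.symm, hd.symm]; exact hFst.le
    · rw [hlam2 u v h]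
      calc θ * F u v ≤ θ * ((2 * C + 3) * d u v) :=
            mul_le_mul_of_nonneg_left (hFup u v) hθ.le
        _ = θ * (2 * C + 3) * d u v := by ring
        _ = d u v := by rw [hθC, one_mul]
  have hFD : ∀ x y, θ * F x y ≤ D x y := by
    intro x y
    have h1 := hD4 (fun z => θ * F x z) (fun u v _ => by
      refine le_trans ?_ (hFle u v)
      rw [← mul_sub, abs_mul, abs_of_nonneg hθ.le]
      refine mul_le_mul_of_nonneg_left ?_ hθ.le
      rw [hF.symm x u, hF.symm x v]
      exact hF.abs_sub_le u v x) x y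
    rw [hF.self, mul_zero, zero_sub, abs_neg, abs_of_nonneg
      (mul_nonneg hθ.le (hF.nonneg x y))] at h1
    exact h1
  refine ⟨D, hD, ?_, hD1, hD2, hst', ?_, ?_⟩
  · intro f hf x y
    exact hD4 f (fun u v huv => (hf u v huv).trans (hD3 u v huv)) x y
  · intro u v huv h
    exact hstar u v huv (h.elim Or.inl fun h => Or.inr (Or.inl h))
  · refine ⟨fun x y => θ * F x y, hF.smul hθ.le, ?_, ?_, hFD⟩
    · show θ * F s t = D s t
      rw [hFst, hst']
    · intro x y
      show _ ≤ θ * F x y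
      have hk : (0 : ℝ) < 640 * (k + 1) := by positivity
      have h1 := hFlow x y
      have h2 := hD2 x y
      have e : 1 / (640 * ((k : ℝ) + 1) * (2 * C + 3)) = θ * (1 / (640 * (k + 1))) := by
        rw [hθd]; field_simp
      rw [e, mul_assoc]
      refine mul_le_mul_of_nonneg_left ?_ hθ.le
      rw [one_div, inv_mul_le_iff₀ hk]
      exact h2.trans h1

end Vale.Agent.P235.Hub.H424
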